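import Mathlib
import Vale.Agent.Lib.P227.Defs
import Vale.Agent.Lib.P227.helper61.Profile

namespace Vale.Agent.Results.P227.ProfileBodies

open Vale.Agent.Lib.P227
open scoped Pointwise

/-- The logarithmic Brunn-Minkowski inequality for pairs of profile bodies over a common
shape. Let `A` be a compact set in `R^n` containing the origin and let `K`, `L` be
origin-symmetric compact convex sets in `R^(n+1)`, both invariant under the reflection
`x ↦ x - 2 x_0 e_0`, such that every section `{x_0 = t}` of `K` and of `L` is empty or a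
nonnegative dilate of `A` (in the last `n` coordinates). Then the inequality holds for
`K`, `L` and every `lam` in `[0, 1]`. -/
theorem result (n : ℕ) (lam : ℝ) (h0 : 0 ≤ lam) (h1 : lam ≤ 1)
    (A : Set (EuclideanSpace ℝ (Fin n)))
    (hA_compact : IsCompact A) (hA_zero : (0 : EuclideanSpace ℝ (Fin n)) ∈ A)
    (K L : Set (EuclideanSpace ℝ (Fin (n + 1))))
    (hK_convex : Convex ℝ K) (hK_compact : IsCompact K) (hK_symm : ∀ x ∈ K, -x ∈ K)
    (hK_refl : ∀ x ∈ K, x - (2 * x 0) • EuclideanSpace.single (0 : Fin (n + 1)) (1 : ℝ) ∈ K)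
    (hK_sec : ∀ t : ℝ, (∀ x ∈ K, x 0 ≠ t) ∨ ∃ a : ℝ, 0 ≤ a ∧
      ∀ x : EuclideanSpace ℝ (Fin (n + 1)), x 0 = t →
        (x ∈ K ↔ (WithLp.toLp 2 (fun i : Fin n => x i.succ) : EuclideanSpace ℝ (Fin n)) ∈ a • A))
    (hL_convex : Convex ℝ L) (hL_compact : IsCompact L) (hL_symm : ∀ x ∈ L, -x ∈ L)
    (hL_refl : ∀ x ∈ L, x - (2 * x 0) • EuclideanSpace.single (0 : Fin (n + 1)) (1 : ℝ) ∈ L)
    (hL_sec : ∀ t : ℝ, (∀ x ∈ L, x 0 ≠ t) ∨ ∃ b : ℝ, 0 ≤ b ∧
      ∀ x : EuclideanSpace ℝ (Fin (n + 1)), x 0 = t →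
        (x ∈ L ↔ (WithLp.toLp 2 (fun i : Fin n => x i.succ) : EuclideanSpace ℝ (Fin n)) ∈ b • A)) :
    MeasureTheory.volume K ^ (1 - lam) * MeasureTheory.volume L ^ lam
      ≤ MeasureTheory.volume (logSum lam K L) :=
  h61_logBM_profile h0 h1 hA_compact hA_zero hK_convex hK_compact hK_symm hK_refl hK_sec
    hL_convex hL_compact hL_symm hL_refl hL_sec

end Vale.Agent.Results.P227.ProfileBodies
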