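import Mathlib
import Vale.Agent.Lib.P227.Defs
import Vale.Agent.Lib.P227.helper61.ProfileKFib

namespace Vale.Agent.Results.P227.ProfileBodiesIterated

open Vale.Agent.Lib.P227
open scoped Pointwise

/-- The logarithmic Brunn-Minkowski inequality for pairs of bodies with `k` common coordinate
reflections and fibres that are dilates of a common shape. Let `A` be a compact set in `R^n`
containing the origin and let `K`, `L` be origin-symmetric compact convex sets in `R^(n+k)`,
both invariant under the reflections `x ↦ x - 2 x_i e_i` of the first `k` coordinates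
(`i < k`), such that through every point `x` of `K` (and of `L`) the fibre over the first `k`
coordinates is a nonnegative dilate of `A`: the points `y` with the same first `k` coordinates
as `x` lie in `K` exactly when their last `n` coordinates (those with index `k + j`, `j < n`)
lie in `a • A`. Then the inequality holds for `K`, `L` and every `lam` in `[0, 1]`. -/
theorem result (n k : ℕ) (lam : ℝ) (h0 : 0 ≤ lam) (h1 : lam ≤ 1)
    (A : Set (EuclideanSpace ℝ (Fin n)))
    (hA_compact : IsCompact A) (hA_zero : (0 : EuclideanSpace ℝ (Fin n)) ∈ A)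
    (K L : Set (EuclideanSpace ℝ (Fin (n + k))))
    (hK_convex : Convex ℝ K) (hK_compact : IsCompact K) (hK_symm : ∀ x ∈ K, -x ∈ K)
    (hK_refl : ∀ i : Fin (n + k), (i : ℕ) < k →
      ∀ x ∈ K, x - (2 * x i) • EuclideanSpace.single i (1 : ℝ) ∈ K)
    (hK_fib : ∀ x ∈ K, ∃ a : ℝ, 0 ≤ a ∧ ∀ y : EuclideanSpace ℝ (Fin (n + k)),
      (∀ i : Fin (n + k), (i : ℕ) < k → y i = x i) →
      (y ∈ K ↔ (WithLp.toLp 2 (fun j : Fin n =>
        y (Fin.cast (Nat.add_comm k n) (Fin.natAdd k j))) : EuclideanSpace ℝ (Fin n)) ∈ a • A))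
    (hL_convex : Convex ℝ L) (hL_compact : IsCompact L) (hL_symm : ∀ x ∈ L, -x ∈ L)
    (hL_refl : ∀ i : Fin (n + k), (i : ℕ) < k →
      ∀ x ∈ L, x - (2 * x i) • EuclideanSpace.single i (1 : ℝ) ∈ L)
    (hL_fib : ∀ x ∈ L, ∃ b : ℝ, 0 ≤ b ∧ ∀ y : EuclideanSpace ℝ (Fin (n + k)),
      (∀ i : Fin (n + k), (i : ℕ) < k → y i = x i) →
      (y ∈ L ↔ (WithLp.toLp 2 (fun j : Fin n =>
        y (Fin.cast (Nat.add_comm k n) (Fin.natAdd k j))) : EuclideanSpace ℝ (Fin n)) ∈ b • A)) :
    MeasureTheory.volume K ^ (1 - lam) * MeasureTheory.volume L ^ lam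
      ≤ MeasureTheory.volume (logSum lam K L) :=
  h61_logBM_profK_fib h0 h1 hA_compact hA_zero hK_convex hK_compact hK_symm hK_refl hK_fib
    hL_convex hL_compact hL_symm hL_refl hL_fib

end Vale.Agent.Results.P227.ProfileBodiesIterated
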