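import Mathlib
import Vale.Agent.Lib.P227.Defs
import Vale.Agent.Lib.P227.Segment

namespace Vale.Agent.Results.P227.SegmentSum

open Vale.Agent.Lib.P227
open scoped Pointwise

/-- The logarithmic Brunn-Minkowski inequality for the pair `(K, K + [-v, v])`:
`K` is an arbitrary origin-symmetric convex body in `R^n`, `v` an arbitrary vector,
`lam` an arbitrary number in `[0, 1]`. -/
theorem result (n : ℕ) (K : Set (EuclideanSpace ℝ (Fin n)))
    (hK_convex : Convex ℝ K) (hK_compact : IsCompact K)
    (hK_interior : (interior K).Nonempty) (hK_symm : ∀ x ∈ K, -x ∈ K)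
    (v : EuclideanSpace ℝ (Fin n)) (lam : ℝ) (h0 : 0 ≤ lam) (h1 : lam ≤ 1) :
    MeasureTheory.volume K ^ (1 - lam)
        * MeasureTheory.volume (K + segment ℝ (-v) v) ^ lam
      ≤ MeasureTheory.volume (logSum lam K (K + segment ℝ (-v) v)) :=
  logBM_add_segment MeasureTheory.volume K hK_convex hK_compact hK_interior hK_symm v lam h0 h1

end Vale.Agent.Results.P227.SegmentSum
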